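import Vale.Agent.P022.H567.Tw.Main
import Vale.Agent.P022.H853.L3.Cyc
import Vale.Agent.P022.H20.L3.Fin3

/-!
# P022 [COND]: twists by all characters of odd modulus, without a condition at the primes of the
modulus
-/

open NumberField Matrix

noncomputable section

namespace Vale.Agent.P022.H567.Tw

/-- [INERT] the inertia groups above `p ∣ m` realise the units which are trivial modulo the
divisors of `m` prime to `p` -/
def InertStmt : Prop := ∀ (m p : ℕ), 0 < m → p.Prime → p ∣ m → ∀ u : (ZMod m)ˣ,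
  (∀ (m₁ : ℕ) (h : m₁ ∣ m), p.Coprime m₁ → ZMod.unitsMap h u = 1) →
    ∃ P : Ideal (𝓞 Qb), P.IsPrime ∧ (p : 𝓞 Qb) ∈ P ∧ ∃ g : GQ,
      (∀ x : 𝓞 Qb, g • x - x ∈ P) ∧ ∀ ζ : Qb, ζ ^ m = 1 → g ζ = ζ ^ (u : ZMod m).val

section

variable {E : Type} [Field E]

/-- a twist by `ψ₁ ∘ (ZMod m → ZMod m₁)` is a twist by `ψ₁` -/
theorem isTwist_low {m₁ m : ℕ} [NeZero m₁] [NeZero m] (hd : m₁ ∣ m) {ψ : (ZMod m)ˣ →* Eˣ}
    {ψ₁ : (ZMod m₁)ˣ →* Eˣ} (hψ : ∀ u, ψ u = ψ₁ (ZMod.unitsMap hd u))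
    {r₀ r : GQ →* GL (Fin 2) E} (htw : St.IsTwist m ψ r₀ r) : St.IsTwist m₁ ψ₁ r₀ r := by
  intro g a₁ ha₁
  have h1 := htw g (H853.cyc m g) fun ζ hζ => H853.cyc_spec g hζ
  have h2 : ZMod.unitsMap hd (H853.cyc m g) = a₁ := by
    have hp := H853.zt_prim m₁
    have h3 : H853.zt m₁ ^ m = 1 := by
      obtain ⟨k, rfl⟩ := hd
      rw [pow_mul, hp.pow_eq_one, one_pow]
    have h4 := H853.cyc_spec g h3
    have hf : IsOfFinOrder (H853.zt m₁) :=
      isOfFinOrder_iff_pow_eq_one.2 ⟨m₁, NeZero.pos m₁, hp.pow_eq_one⟩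
    rw [ha₁ _ hp.pow_eq_one] at h4
    replace h4 := hf.pow_eq_pow_iff_modEq.1 h4
    rw [← hp.eq_orderOf] at h4
    have h5 := (ZMod.natCast_eq_natCast_iff _ _ _).2 h4
    rw [ZMod.natCast_zmod_val] at h5
    apply Units.ext
    rw [h5, ZMod.unitsMap_val, ZMod.natCast_val]
  rw [h1, hψ, h2]

/-- a character which is trivial on the kernel of the reduction factors through it -/
theorem exists_factor {m₁ m : ℕ} [NeZero m] (hd : m₁ ∣ m) (ψ : (ZMod m)ˣ →* Eˣ)
    (h : ∀ u, ZMod.unitsMap hd u = 1 → ψ u = 1) :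
    ∃ ψ₁ : (ZMod m₁)ˣ →* Eˣ, ∀ u, ψ u = ψ₁ (ZMod.unitsMap hd u) := by
  have hs := ZMod.unitsMap_surjective hd
  refine ⟨MonoidHom.liftOfSurjective _ hs ⟨ψ, fun u hu => h u hu⟩, fun u => ?_⟩
  exact (MonoidHom.liftOfRightInverse_comp_apply _ _ (Function.rightInverse_surjInv hs)
    ⟨ψ, fun u hu => h u hu⟩ u).symm

end

/-- every prime of `N₀` is ramified in `r₀` with non-scalar inertia -/
def NonScal {E : Type} [Field E] (N₀ : ℕ) (r₀ : GQ →* GL (Fin 2) E) : Prop :=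
  ∀ p : ℕ, p.Prime → p ∣ N₀ → ∃ P : Ideal (𝓞 Qb), P.IsPrime ∧ (p : 𝓞 Qb) ∈ P ∧ ∃ g : GQ,
    (∀ x : 𝓞 Qb, g • x - x ∈ P) ∧ ∀ c : E, (r₀ g : Matrix (Fin 2) (Fin 2) E) ≠ c • 1

/-- **every twist by a character of odd modulus** -/
theorem q1_any (hI : InertStmt) (E : Type) [NontriviallyNormedField E] [NormedAlgebra ℚ_[2] E]
    [FiniteDimensional ℚ_[2] E] (N₀ : ℕ) [NeZero N₀] (hN : Odd N₀)
    (r₀ r : GQ →* GL (Fin 2) E) (h : Occurs E N₀ r₀) (h0 : NonScal N₀ r₀) (m : ℕ) (hm : Odd m)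
    (ψ : (ZMod m)ˣ →* Eˣ) (htw : St.IsTwist m ψ r₀ r) : Q1Concl E r := by
  induction m using Nat.strong_induction_on with
  | _ m ih =>
    have hm0 : NeZero m := ⟨hm.pos.ne'⟩
    by_cases hall : ∀ p : ℕ, p.Prime → p ∣ m → ¬ UnrAt r p
    · refine twist_three E N₀ m hN hm ψ r₀ r h (fun p hp hpN hu => ?_) htw hall
      obtain ⟨P, hP, hpP, g, hg, hc⟩ := h0 p hp hpN
      apply hc 1
      rw [hu P hP hpP g hg, Units.val_one, one_smul]
    · push Not at hall
      obtain ⟨p, hp, hpm, hu⟩ := hall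
      have hp2 : p ≠ 2 := by
        rintro rfl
        exact (Nat.not_even_iff_odd.2 hm) ((even_iff_two_dvd).2 hpm)
      have hpN : ¬ p ∣ N₀ := by
        intro hpN
        obtain ⟨P, hP, hpP, g, hg, hc⟩ := h0 p hp hpN
        have h1 := htw g (H853.cyc m g) fun ζ hζ => H853.cyc_spec g hζ
        rw [hu P hP hpP g hg, Units.val_one] at h1
        apply hc (((ψ (H853.cyc m g))⁻¹ : Eˣ) : E)
        rw [h1, smul_smul, Units.inv_mul, one_smul]
      have hur : UnrAt r₀ p := h.1 ⟨p, hp, fun h2 => by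
        rcases (Nat.Prime.dvd_mul hp).1 h2 with h3 | h3
        · exact hp2 ((Nat.prime_dvd_prime_iff_eq hp Nat.prime_two).1 h3)
        · exact hpN h3⟩
      obtain ⟨k, m₁, hm₁, hmk⟩ := Nat.exists_eq_pow_mul_and_not_dvd (NeZero.ne m) p hp.ne_one
      have hd : m₁ ∣ m := ⟨p ^ k, by rw [hmk, mul_comm]⟩
      have hk : k ≠ 0 := by
        rintro rfl
        rw [pow_zero, one_mul] at hmk
        exact hm₁ (hmk ▸ hpm)
      have hm₁0 : NeZero m₁ := ⟨fun h => hm₁ (h ▸ dvd_zero p)⟩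
      have hlt : m₁ < m := by
        rw [hmk]
        exact lt_mul_of_one_lt_left (NeZero.pos m₁) (Nat.one_lt_pow hk hp.one_lt)
      have htriv : ∀ u, ZMod.unitsMap hd u = 1 → ψ u = 1 := by
        intro u hu1
        obtain ⟨P, hP, hpP, g, hg, hz⟩ := hI m p (NeZero.pos m) hp hpm u fun m₂ h2 hc => by
          have h3 : m₂ ∣ m₁ := by
            rw [hmk] at h2
            exact (Nat.Coprime.pow_left k hc).symm.dvd_of_dvd_mul_left h2
          have h4 := congrArg (ZMod.unitsMap h3) hu1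
          rw [map_one] at h4
          rw [← h4, ← MonoidHom.comp_apply, ZMod.unitsMap_comp]
        have h5 := htw g u hz
        rw [hu P hP hpP g hg, hur P hP hpP g hg, Units.val_one] at h5
        have h6 := congrFun (congrFun h5 0) 0
        simp only [Matrix.smul_apply, Matrix.one_apply_eq, smul_eq_mul, mul_one] at h6
        exact Units.ext h6.symm
      obtain ⟨ψ₁, hψ₁⟩ := exists_factor hd ψ htriv
      exact ih m₁ hlt (Odd.of_dvd_nat hm hd) ψ₁ (isTwist_low hd hψ₁ htw)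

/-- the class of level `3` has non-scalar inertia at `3` -/
theorem nonScal_three {E : Type} [NontriviallyNormedField E] [NormedAlgebra ℚ_[2] E]
    {r : GQ →* GL (Fin 2) E} (h3 : C3 r) : NonScal 3 r := by
  intro p hp hp3
  obtain rfl := (Nat.prime_dvd_prime_iff_eq hp Nat.prime_three).1 hp3
  obtain ⟨-, -, h1, h2⟩ := h3
  unfold UnrAt at h2
  push Not at h2
  obtain ⟨P, hP, hpP, g, hg, hne⟩ := h2
  refine ⟨P, hP, hpP, g, hg, fun c hc => ?_⟩
  rcases h1 P hP hpP g hg with h4 | ⟨h4, h5⟩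
  · exact hne h4
  · have h6 := congrArg (fun x : GL (Fin 2) E => (x : Matrix (Fin 2) (Fin 2) E)) h4
    simp only [Units.val_mul, Units.val_one] at h6
    rw [hc] at h5 h6
    have h7 := congrFun (congrFun h6 0) 0
    simp [Matrix.mul_apply, Fin.sum_univ_two] at h7
    rw [Matrix.det_smul, Matrix.det_one, Fintype.card_fin, mul_one, sq, h7] at h5
    have h8 : (2 : E) = 0 := by linear_combination h5
    have : CharZero E := charZero_of_injective_algebraMap (algebraMap ℚ_[2] E).injective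
    exact two_ne_zero h8

end Vale.Agent.P022.H567.Tw

namespace Vale.Agent.P022.St

/-- **the class of level `3` and all its twists by characters of odd modulus** -/
theorem q1_three (hI : H567.Tw.InertStmt)
    (l3 : ∀ (E : Type) [NontriviallyNormedField E] [NormedAlgebra ℚ_[2] E]
      [FiniteDimensional ℚ_[2] E] (r : GQ →* GL (Fin 2) E), Continuous r → Vale.Agent.P022.OddRep r →
      C3 r → Vale.Agent.P022.Occurs E 3 r)
    (E : Type) [NontriviallyNormedField E] [NormedAlgebra ℚ_[2] E]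
    [FiniteDimensional ℚ_[2] E] (r₀ r : GQ →* GL (Fin 2) E) (hc : Continuous r₀)
    (ho : Vale.Agent.P022.OddRep r₀) (h3 : C3 r₀) (m : ℕ) (hm : Odd m)
    (ψ : (ZMod m)ˣ →* Eˣ) (htw : IsTwist m ψ r₀ r) : Q1Concl r :=
  q1Concl r (H567.Tw.q1_any hI E 3 (by decide) r₀ r (l3 E r₀ hc ho h3)
    (H567.Tw.nonScal_three h3) m hm ψ htw)

end Vale.Agent.P022.St
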