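import Vale.Agent.P022.H567.Tw.Th
import Vale.Agent.P022.H783.QE

/-!
# P022 [TW-Q]: the coefficients of the components
-/

open scoped ModularForm MatrixGroups Manifold
open UpperHalfPlane Matrix CongruenceSubgroup Finset

noncomputable section

namespace Vale.Agent.P022.H567.Tw

open H783

variable {N m : ℕ} [NeZero N] [NeZero m]

/-- the coefficients of a form -/
abbrev cf {N k : ℕ} (f : MF N k) (n : ℕ) : ℂ := (qExpansion 1 f).coeff n

theorem cf_unique {N k : ℕ} [NeZero N] (f : MF N k) (c : ℕ → ℂ)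
    (h : ∀ τ : ℍ, HasSum (fun n => c n * qq τ ^ n) (f τ)) (n : ℕ) : cf f n = c n := by
  have : Fact (IsCusp OnePoint.infty (Gam N)) :=
    ⟨(Gam N).isCusp_of_mem_strictPeriods one_pos one_mem_periods⟩
  exact (ModularFormClass.qExpansion_coeff_unique (c := c) one_pos one_mem_periods
    (fun τ => by simpa only [smul_eq_mul] using h τ) n).symm

theorem cf_tv (v : ℤ) (k : ℕ) (f : MF N k) (n : ℕ) :
    cf (tv N m v k f) n =
      Complex.exp (2 * Real.pi * Complex.I * ((v : ℂ) * n / m)) * cf f n := by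
  refine cf_unique (N := N * m ^ 2) _ (fun n => Complex.exp (2 * Real.pi * Complex.I *
    ((v : ℂ) * n / m)) * cf f n) (fun τ => ?_) n
  rw [tv_apply]
  have h := hasSum_form f (((v : ℝ) / m) +ᵥ τ)
  convert h using 2 with j
  have e : qq (((v : ℝ) / m) +ᵥ τ) =
      Complex.exp (2 * Real.pi * Complex.I * ((v : ℂ) / m)) * qq τ := by
    rw [qq, qq, Function.Periodic.qParam, Function.Periodic.qParam, ← Complex.exp_add,
      UpperHalfPlane.coe_vadd]
    congr 1
    push_cast
    ring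
  rw [e, mul_pow, ← Complex.exp_nat_mul]
  rw [show ((j : ℂ) * (2 * Real.pi * Complex.I * ((v : ℂ) / m))) =
    2 * Real.pi * Complex.I * ((v : ℂ) * j / m) by ring]
  ring

theorem cf_tz (v : ZMod m) (k : ℕ) (f : MF N k) (n : ℕ) :
    cf (tz N m v k f) n = ZMod.stdAddChar (v * (n : ZMod m)) * cf f n := by
  rw [tz, cf_tv]
  congr 1
  have h1 : (v * (n : ZMod m) : ZMod m) = ((v.val * n : ℤ) : ZMod m) := by
    push_cast
    rw [ZMod.natCast_zmod_val]
  rw [h1, ZMod.stdAddChar_coe]
  congr 1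
  push_cast
  ring

theorem cf_sum {ι : Type} (s : Finset ι) {k : ℕ} (F : ι → MF N k) (n : ℕ) :
    cf (∑ i ∈ s, F i) n = ∑ i ∈ s, cf (F i) n := by
  refine cf_unique _ (fun n => ∑ i ∈ s, cf (F i) n) (fun τ => ?_) n
  have h : HasSum (fun n => ∑ i ∈ s, cf (F i) n * qq τ ^ n) (∑ i ∈ s, F i τ) :=
    hasSum_sum fun i _ => hasSum_form (F i) τ
  have e : (∑ i ∈ s, F i) τ = ∑ i ∈ s, F i τ := by
    induction s using Finset.cons_induction with
    | empty => rfl
    | cons a s ha ih =>
      rw [Finset.sum_cons, Finset.sum_cons]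
      change F a τ + (∑ i ∈ s, F i) τ = _
      rw [ih]
      exact hasSum_sum fun i _ => hasSum_form (F i) τ
  rw [e]
  convert h using 2 with n
  rw [Finset.sum_mul]

theorem cf_zero (k n : ℕ) : cf (0 : MF N k) n = 0 := by
  refine cf_unique _ (fun _ => 0) (fun τ => ?_) n
  simp only [zero_mul]
  exact hasSum_zero

/-- **the coefficients of the components of a polynomial which kills the level `N m²`** -/
theorem comp_coeff {k : ℕ} (X : (ZMod m)ˣ → Module.End ℂ (MF N k)) (f : MF N k)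
    (h : ∀ v : ZMod m, ∑ g : (ZMod m)ˣ, tz N m (g * v) k (X g f) = 0) (g₀ : (ZMod m)ˣ) (n : ℕ)
    (hn : n.Coprime m) : cf (X g₀ f) n = 0 := by
  classical
  have h1 : ∀ v : ZMod m, ∑ g : (ZMod m)ˣ,
      ZMod.stdAddChar ((g : ZMod m) * v * (n : ZMod m)) * cf (X g f) n = 0 := by
    intro v
    have h2 := congrArg (fun F : MF (N * m ^ 2) k => cf F n) (h v)
    simp only [cf_zero, cf_sum, cf_tz] at h2
    exact h2
  have h3 : ∑ v : ZMod m, ZMod.stdAddChar (-((g₀ : ZMod m) * v * (n : ZMod m))) * ∑ g : (ZMod m)ˣ,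
      ZMod.stdAddChar ((g : ZMod m) * v * (n : ZMod m)) * cf (X g f) n = 0 := by
    simp only [h1, mul_zero, Finset.sum_const_zero]
  have h4 : ∑ g : (ZMod m)ˣ, (∑ v : ZMod m,
      ZMod.stdAddChar (v * (((g : ZMod m) - (g₀ : ZMod m)) * (n : ZMod m)))) * cf (X g f) n = 0 := by
    rw [← h3]
    simp only [Finset.sum_mul, Finset.mul_sum]
    rw [Finset.sum_comm]
    refine Finset.sum_congr rfl fun v _ => Finset.sum_congr rfl fun g _ => ?_
    have e : ZMod.stdAddChar (v * (((g : ZMod m) - (g₀ : ZMod m)) * (n : ZMod m))) =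
        ZMod.stdAddChar (-((g₀ : ZMod m) * v * (n : ZMod m))) *
          ZMod.stdAddChar ((g : ZMod m) * v * (n : ZMod m)) := by
      rw [← AddChar.map_add_eq_mul]
      congr 1
      ring
    rw [e, mul_assoc]
  simp only [AddChar.sum_mulShift _ (ZMod.isPrimitive_stdAddChar m)] at h4
  have hu : IsUnit (n : ZMod m) := (ZMod.isUnit_iff_coprime n m).2 hn
  rw [Finset.sum_eq_single g₀] at h4
  · rw [sub_self, zero_mul, if_pos rfl, ZMod.card] at h4
    have hm : (m : ℂ) ≠ 0 := by exact_mod_cast NeZero.ne m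
    exact (mul_eq_zero.1 h4).resolve_left (by simpa using hm)
  · intro g _ hg
    rw [if_neg, Nat.cast_zero, zero_mul]
    intro h0
    apply hg
    rw [hu.mul_left_eq_zero, sub_eq_zero] at h0
    exact Units.ext h0
  · intro h0
    exact absurd (Finset.mem_univ _) h0

end Vale.Agent.P022.H567.Tw
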