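import Vale.Agent.P022.H567.Tw.Cond
import Vale.Agent.P022.H297.L3.Inert

/-!
# P022 [COND]: the input on inertia, from helper297's theorem
-/

open NumberField Matrix

noncomputable section

namespace Vale.Agent.P022.H567.Tw

theorem inertStmt : InertStmt := by
  intro m p hm hp _ u hu
  have hm0 : NeZero m := ⟨hm.ne'⟩
  obtain ⟨k, m₁, hm₁, hmk⟩ := Nat.exists_eq_pow_mul_and_not_dvd hm.ne' p hp.ne_one
  have hc : p.Coprime m₁ := (Nat.Prime.coprime_iff_not_dvd hp).2 hm₁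
  have hd : m₁ ∣ m := ⟨p ^ k, by rw [hmk, mul_comm]⟩
  have h1 := congrArg Units.val (hu m₁ hd hc)
  rw [ZMod.unitsMap_val, Units.val_one] at h1
  have h2 : (u : ZMod m).val ≡ 1 [MOD m₁] := by
    rw [← ZMod.natCast_eq_natCast_iff, ZMod.natCast_val, h1, Nat.cast_one]
  obtain ⟨P, hP, hpP, g, hg, hz⟩ := H297.L3.inert_exists hp hmk hc u h2
  refine ⟨P, hP, hpP, g, hg, fun ζ hζ => ?_⟩
  rw [H853.cyc_spec g hζ, hz]

end Vale.Agent.P022.H567.Tw

namespace Vale.Agent.P022.St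

/-- **all twists by characters of odd modulus** -/
theorem q1_of_any_twist (E : Type) [NontriviallyNormedField E] [NormedAlgebra ℚ_[2] E]
    [FiniteDimensional ℚ_[2] E] (N₀ : ℕ) [NeZero N₀] (hN : Odd N₀)
    (r₀ r : GQ →* GL (Fin 2) E) (h : Vale.Agent.P022.Occurs E N₀ r₀)
    (h0 : H567.Tw.NonScal N₀ r₀) (m : ℕ) (hm : Odd m)
    (ψ : (ZMod m)ˣ →* Eˣ) (htw : IsTwist m ψ r₀ r) : Q1Concl r :=
  q1Concl r (H567.Tw.q1_any H567.Tw.inertStmt E N₀ hN r₀ r h h0 m hm ψ htw)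

/-- **all twists of the class of level `3`** -/
theorem q1_three_twist (E : Type) [NontriviallyNormedField E] [NormedAlgebra ℚ_[2] E]
    [FiniteDimensional ℚ_[2] E] (r₀ r : GQ →* GL (Fin 2) E)
    (h : Vale.Agent.P022.Occurs E 3 r₀) (h3 : C3 r₀) (m : ℕ) (hm : Odd m)
    (ψ : (ZMod m)ˣ →* Eˣ) (htw : IsTwist m ψ r₀ r) : Q1Concl r :=
  q1_of_any_twist E 3 (by decide) r₀ r h (H567.Tw.nonScal_three h3) m hm ψ htw

end Vale.Agent.P022.St
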