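import Vale.Agent.P022.H567.Tw.Four

/-!
# P022 [TWIST]: limits of eigensystems, raised level and twists
-/

open scoped ModularForm MatrixGroups Manifold
open UpperHalfPlane Matrix CongruenceSubgroup Finset
open Vale.Agent.P004H.H181 (isCusp_smul_rat)

noncomputable section

namespace Vale.Agent.P022.H567.Tw

open H783

/-- the system `a` is a limit of the systems of eigenvalues of level `N` -/
def Lim (N : ℕ) [NeZero N] {E : Type} [NormedField E] (a : Gen N → E) : Prop :=
  ∀ ε : ℝ, 0 < ε → ∃ k : ℕ, ∀ x : FreeAlgebra ℤ (Gen N),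
    (∀ i < k, FreeAlgebra.lift ℤ (fun s => gHk N s i) x = 0) → ‖FreeAlgebra.lift ℤ a x‖ < ε

/-! ### raising the level -/

/-- a prime `ℓ ∤ 2 N m` as a prime `ℓ ∤ 2 N` -/
def dec1 {N m : ℕ} (ℓ : PA (N * m)) : PA N :=
  ⟨ℓ.1, ℓ.2.1, fun h => ℓ.2.2 (h.trans ⟨m, by ring⟩)⟩

theorem Gam_le {N m : ℕ} {γ : GL (Fin 2) ℝ} (hγ : γ ∈ Gam (N * m)) : γ ∈ Gam N := by
  obtain ⟨a, b, c, d, h1, h2, h2a, h2d, h3⟩ := of_mem_G1 hγ
  push_cast at h2 h2a h2d
  exact mem_Gam h1 ((dvd_mul_right _ _).trans h2) ((dvd_mul_right _ _).trans h2d) γ h3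

/-- a form of level `N` as a form of level `N m` -/
def incl (N m : ℕ) [NeZero N] [NeZero m] (k : ℕ) : MF N k →ₗ[ℂ] MF (N * m) k where
  toFun f :=
    { toFun := (f : ℍ → ℂ)
      slash_action_eq' := fun γ hγ => f.slash_action_eq' γ (Gam_le hγ)
      holo' := f.holo'
      bdd_at_cusps' := fun {c} hc => by
        have hc' : IsCusp c (Gam N) := by
          rw [Subgroup.IsArithmetic.isCusp_iff_isCusp_SL2Z] at hc ⊢
          exact hc
        exact f.bdd_at_cusps' hc' }
  map_add' f g := by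
    ext τ
    rfl
  map_smul' c f := by
    ext τ
    rfl

theorem incl_coe (N m : ℕ) [NeZero N] [NeZero m] (k : ℕ) (f : MF N k) :
    (incl N m k f : ℍ → ℂ) = f := rfl

theorem incl_inj (N m : ℕ) [NeZero N] [NeZero m] (k : ℕ) :
    Function.Injective (incl N m k) := by
  intro f g h
  apply DFunLike.coe_injective
  rw [← incl_coe N m k f, h, incl_coe]

theorem dFun_incl {N m : ℕ} [NeZero N] [NeZero m] (k : ℕ) (ℓ : PA (N * m)) (f : MF N k) :
    dFun (N * m) k ℓ f = dFun N k (dec1 ℓ) f := by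
  obtain ⟨a, b, h1, e⟩ := gd_coe ℓ.coprime
  rw [dFun_eq (dec1 ℓ) (s := gd (N * m) ℓ.1 ℓ.coprime) ?_ ?_ f, dFun]
  · rw [Gamma0_mem, e]
    simp
  · rw [e]
    simp [dec1]

/-- the generator of level `N` below a generator of level `N m` -/
def decG {N m : ℕ} : Gen (N * m) → Gen N := Sum.map dec1 dec1

theorem gHk_incl {N m : ℕ} [NeZero N] [NeZero m] (s : Gen (N * m)) (i : ℕ) (f : MF N (i + 1)) :
    gHk (N * m) s i (incl N m (i + 1) f) = incl N m (i + 1) (gHk N (decG s) i f) := by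
  rcases s with ℓ | ℓ
  · change H783.Tl (i + 1) ℓ (incl N m (i + 1) f) =
      incl N m (i + 1) (H783.Tl (i + 1) (dec1 ℓ) f)
    apply DFunLike.coe_injective
    rw [Tl_coe, incl_coe, incl_coe, Tl_coe, tFun, tFun, dFun_incl]
    rfl
  · change ((ℓ.1 : ℂ) ^ i) • H783.dia (i + 1) ℓ (incl N m (i + 1) f) =
      incl N m (i + 1) (((ℓ.1 : ℂ) ^ i) • H783.dia (i + 1) (dec1 ℓ) f)
    rw [map_smul]
    congr 1
    apply DFunLike.coe_injective
    rw [dia_coe, incl_coe, incl_coe, dia_coe, dFun_incl]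

/-- a polynomial in the generators of level `N m` as a polynomial in those of level `N` -/
def low {N m : ℕ} : FreeAlgebra ℤ (Gen (N * m)) →ₐ[ℤ] FreeAlgebra ℤ (Gen N) :=
  FreeAlgebra.lift ℤ (fun s => FreeAlgebra.ι ℤ (decG s))

theorem opx_incl {N m : ℕ} [NeZero N] [NeZero m] (x : FreeAlgebra ℤ (Gen (N * m))) (i : ℕ)
    (f : MF N (i + 1)) :
    opx (N * m) i x (incl N m (i + 1) f) = incl N m (i + 1) (opx N i (low x) f) := by
  induction x using FreeAlgebra.induction generalizing f with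
  | grade0 n =>
    simp only [opx, AlgHom.commutes]
    rw [eq_intCast, eq_intCast, Module.End.intCast_apply, Module.End.intCast_apply, map_zsmul]
  | grade1 s =>
    simp only [opx, low, FreeAlgebra.lift_ι_apply]
    exact gHk_incl s i f
  | mul p q hp hq =>
    simp only [opx, map_mul] at hp hq ⊢
    rw [Module.End.mul_apply, Module.End.mul_apply, hq, hp]
  | add p q hp hq =>
    simp only [opx, map_add] at hp hq ⊢
    rw [LinearMap.add_apply, LinearMap.add_apply, map_add, hp, hq]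

theorem lift_low {N m : ℕ} {E : Type} [CommRing E] (a : Gen N → E)
    (x : FreeAlgebra ℤ (Gen (N * m))) :
    FreeAlgebra.lift ℤ (fun s => a (decG s)) x = FreeAlgebra.lift ℤ a (low x) := by
  have : FreeAlgebra.lift ℤ (fun s => a (decG s)) =
      (FreeAlgebra.lift ℤ a).comp (low (N := N) (m := m)) := by
    apply FreeAlgebra.hom_ext
    funext s
    simp [low]
  rw [this]
  rfl

/-- **raising the level** -/
theorem Lim.raise {N : ℕ} [NeZero N] (m : ℕ) [NeZero m] {E : Type} [NormedField E]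
    {a : Gen N → E} (h : Lim N a) : Lim (N * m) (fun s => a (decG s)) := by
  intro ε hε
  obtain ⟨k, hk⟩ := h ε hε
  refine ⟨k, fun x hx => ?_⟩
  rw [lift_low]
  refine hk _ fun i hi => ?_
  apply LinearMap.ext
  intro f
  apply incl_inj N m (i + 1)
  have h1 := opx_incl x i f
  have h2 : opx (N * m) i x = 0 := hx i hi
  rw [h2, LinearMap.zero_apply] at h1
  rw [LinearMap.zero_apply, map_zero]
  exact h1.symm

/-! ### twists -/

/-- [KILL] a polynomial in the Hecke operators whose values have no coefficients prime to `m`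
vanishes, if the primes dividing `m` divide the level -/
def Kill (N m : ℕ) [NeZero N] : Prop := ∀ (i : ℕ) (x : FreeAlgebra ℤ (Gen N)),
  (∀ (f : MF N (i + 1)) (n : ℕ), n.Coprime m → cf (opx N i x f) n = 0) → opx N i x = 0

/-- **twisting** -/
theorem Lim.twist {N m : ℕ} [NeZero N] [NeZero m] (hK : Kill N m) {E : Type} [NormedField E]
    [IsUltrametricDist E] (ψ : (ZMod m)ˣ →* E) {a : Gen N → E} (h : Lim N a) :
    Lim (N * m ^ 2) (twa ψ a) := by
  intro ε hε
  obtain ⟨k, hk⟩ := h ε hε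
  refine ⟨k, fun x hx => ?_⟩
  obtain ⟨X, hX1, hX2⟩ := exists_comp ψ a x
  have h1 : ∀ g, ‖FreeAlgebra.lift ℤ a (X g)‖ < ε := by
    intro g
    refine hk _ fun i hi => ?_
    refine hK i (X g) fun f n hn => ?_
    refine comp_coeff (N := N) (m := m) (fun g => opx N i (X g)) f (fun v => ?_) g n hn
    rw [← hX1]
    have h2 : opx (N * m ^ 2) i x = 0 := hx i hi
    rw [h2, LinearMap.zero_apply]
  have h3 : ∀ g, ‖ψ g‖ = 1 := by
    intro g
    have h4 : ψ g ^ (Fintype.card (ZMod m)ˣ) = 1 := by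
      rw [← map_pow, pow_card_eq_one, map_one]
    have h5 : ‖ψ g‖ ^ (Fintype.card (ZMod m)ˣ) = 1 := by
      rw [← norm_pow, h4, norm_one]
    exact (pow_eq_one_iff_of_nonneg (norm_nonneg _) Fintype.card_ne_zero).1 h5
  rw [hX2]
  obtain ⟨g, -, hg⟩ := IsUltrametricDist.exists_norm_finsetSum_le_of_nonempty
    (Finset.univ_nonempty (α := (ZMod m)ˣ)) (fun g => ψ g * FreeAlgebra.lift ℤ a (X g))
  refine hg.trans_lt ?_
  rw [norm_mul, h3, one_mul]
  exact h1 g

end Vale.Agent.P022.H567.Tw
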