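import Vale.Agent.P022.H567.Tw.Sys
import Vale.Agent.P022.H811.L3.Zeta
import Vale.Agent.P022.H933.St.Bridge

/-!
# P022 [TWIST]: occurrence is stable under twists by characters of odd conductor
-/

open NumberField Matrix

noncomputable section

namespace Vale.Agent.P022.H567.Tw

section

variable {E : Type} [NontriviallyNormedField E] [NormedAlgebra ℚ_[2] E] {N : ℕ} [NeZero N]

theorem lim_of_contHom (c : ContHom (gHk N) E) : Lim N c.val := by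
  intro ε hε
  obtain ⟨k, h⟩ := lam_small (gHk N) c ε hε
  refine ⟨k, fun x hx => h x fun i hi => ?_⟩
  rw [← hx i hi]

theorem contHom_of_lim [IsUltrametricDist E] [CompleteSpace E]
    {a : Gen N → E} (ha : ∀ s, ‖a s‖ ≤ 1) (h : Lim N a) :
    ∃ c : ContHom (gHk N) E, ∀ s, c.val s = a s := by
  refine exists_contHom (gHk N) a ha fun ε hε => ?_
  obtain ⟨k, hk⟩ := h ε hε
  refine ⟨k, fun x hx => hk x fun i hi => ?_⟩
  rw [← hx i hi]

end

theorem norm_char {m : ℕ} [NeZero m] {E : Type} [NormedField E] (ψ : (ZMod m)ˣ →* Eˣ)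
    (g : (ZMod m)ˣ) : ‖((ψ g : Eˣ) : E)‖ = 1 := by
  have h4 : ψ g ^ (Fintype.card (ZMod m)ˣ) = 1 := by
    rw [← map_pow, pow_card_eq_one, map_one]
  have h5 : ‖((ψ g : Eˣ) : E)‖ ^ (Fintype.card (ZMod m)ˣ) = 1 := by
    rw [← norm_pow, ← Units.val_pow_eq_pow_val, h4, Units.val_one, norm_one]
  exact (pow_eq_one_iff_of_nonneg (norm_nonneg _) Fintype.card_ne_zero).1 h5

/-- a prime `ℓ ∤ 2 N m m²` as a prime `ℓ ∤ 2 N` -/
def dn0 {N m : ℕ} (ℓ : PA (N * m * m ^ 2)) : PA N := dec1 (dec ℓ)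

/-- **occurrence is stable under twists by characters of odd conductor** -/
theorem occurs_twist (E : Type) [NontriviallyNormedField E] [NormedAlgebra ℚ_[2] E]
    [FiniteDimensional ℚ_[2] E] (N m : ℕ) [NeZero N] [NeZero m]
    (ψ : (ZMod m)ˣ →* Eˣ) (r₀ r : GQ →* GL (Fin 2) E) (h : Occurs E N r₀)
    (htw : St.IsTwist m ψ r₀ r) : Occurs E (N * m * m ^ 2) r := by
  have hcE : CompleteSpace E := FiniteDimensional.complete ℚ_[2] E
  have huE : IsUltrametricDist E := IsUltrametricDist.of_normedAlgebra ℚ_[2]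
  obtain ⟨hun, c, hc⟩ := h
  let ψ' : (ZMod m)ˣ →* E := (Units.coeHom E).comp ψ
  have hψ : ∀ g, ψ' g = ((ψ g : Eˣ) : E) := fun _ => rfl
  let a : Gen (N * m) → E := fun s => c.val (decG s)
  have h1 : Lim (N * m * m ^ 2) (twa ψ' a) :=
    ((lim_of_contHom c).raise m).twist (kill fun p _ hpm => hpm.mul_left N) ψ'
  have h2 : ∀ s, ‖twa ψ' a s‖ ≤ 1 := by
    rintro (ℓ | ℓ)
    · change ‖ψ' (uℓ ℓ) * c.val (Sum.inl (dec1 (dec ℓ)))‖ ≤ 1
      rw [norm_mul, hψ, norm_char, one_mul]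
      exact norm_val_le (gHk N) c _
    · change ‖ψ' (uℓ ℓ) ^ 2 * c.val (Sum.inr (dec1 (dec ℓ)))‖ ≤ 1
      rw [norm_mul, norm_pow, hψ, norm_char, one_pow, one_mul]
      exact norm_val_le (gHk N) c _
  obtain ⟨c', hc'⟩ := contHom_of_lim h2 h1
  refine ⟨fun ℓ => ?_, c', fun ℓ g hg => ?_⟩
  · exact H811.L3.unrAt_twist (NeZero.pos m) ℓ.2.1 (cop ℓ) htw (hun (dec1 (dec ℓ)))
  · have h3 := H811.L3.frob_twist (NeZero.pos m) ℓ.2.1 (cop ℓ) htw hg
    obtain ⟨h4, h5⟩ := hc (dec1 (dec ℓ)) g hg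
    constructor
    · rw [hc', h3, Matrix.trace_smul, ← h4]
      rfl
    · rw [hc', h3, Matrix.det_smul, ← h5, Fintype.card_fin]
      rfl

/-- **the literal of [TWIST]** -/
theorem twist_main (E : Type) [NontriviallyNormedField E] [NormedAlgebra ℚ_[2] E]
    [FiniteDimensional ℚ_[2] E] (N₀ m : ℕ) [NeZero N₀] (hN : Odd N₀) (hm : Odd m)
    (ψ : (ZMod m)ˣ →* Eˣ) (r₀ r : GQ →* GL (Fin 2) E) (h : Occurs E N₀ r₀)
    (htw : St.IsTwist m ψ r₀ r) (hram : ∀ p : ℕ, p.Prime → p ∣ N₀ * m → ¬ UnrAt r p) :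
    Q1Concl E r := by
  have hm0 : NeZero m := ⟨hm.pos.ne'⟩
  refine ⟨N₀ * m * m ^ 2, inferInstance, (hN.mul hm).mul hm.pow, ?_,
    occurs_twist E N₀ m ψ r₀ r h htw⟩
  intro p hp hpN
  apply hram p hp
  rcases (Nat.Prime.dvd_mul hp).1 hpN with h1 | h1
  · exact h1
  · exact (hp.dvd_of_dvd_pow h1).mul_left N₀

/-- the form for the class of level `3`: a twist of `r₀`, ramified at the primes of `m` -/
theorem twist_three (E : Type) [NontriviallyNormedField E] [NormedAlgebra ℚ_[2] E]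
    [FiniteDimensional ℚ_[2] E] (N₀ m : ℕ) [NeZero N₀] (hN : Odd N₀) (hm : Odd m)
    (ψ : (ZMod m)ˣ →* Eˣ) (r₀ r : GQ →* GL (Fin 2) E) (h : Occurs E N₀ r₀)
    (h0 : ∀ p : ℕ, p.Prime → p ∣ N₀ → ¬ UnrAt r₀ p)
    (htw : St.IsTwist m ψ r₀ r) (hram : ∀ p : ℕ, p.Prime → p ∣ m → ¬ UnrAt r p) :
    Q1Concl E r := by
  refine twist_main E N₀ m hN hm ψ r₀ r h htw fun p hp hpN => ?_
  by_cases hpm : p ∣ m
  · exact hram p hp hpm
  · have hp0 : p ∣ N₀ := ((Nat.Prime.dvd_mul hp).1 hpN).resolve_right hpm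
    intro hu
    apply h0 p hp hp0
    intro P hP hpP g hg
    rw [← H811.L3.inert_twist hm.pos hp ((Nat.Prime.coprime_iff_not_dvd hp).2 hpm) htw P hP hpP
      hg]
    exact hu P hP hpP g hg

end Vale.Agent.P022.H567.Tw

namespace Vale.Agent.P022.St

/-- the same in the words of the statement -/
theorem q1_of_twist (E : Type) [NontriviallyNormedField E] [NormedAlgebra ℚ_[2] E]
    [FiniteDimensional ℚ_[2] E] (N₀ m : ℕ) [NeZero N₀] (hN : Odd N₀) (hm : Odd m)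
    (ψ : (ZMod m)ˣ →* Eˣ) (r₀ r : GQ →* GL (Fin 2) E) (h : Vale.Agent.P022.Occurs E N₀ r₀)
    (h0 : ∀ p : ℕ, p.Prime → p ∣ N₀ → ¬ UnrAt r₀ p)
    (htw : IsTwist m ψ r₀ r) (hram : ∀ p : ℕ, p.Prime → p ∣ m → ¬ UnrAt r p) : Q1Concl r :=
  q1Concl r (H567.Tw.twist_three E N₀ m hN hm ψ r₀ r h h0 htw hram)

end Vale.Agent.P022.St
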