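import Vale.Agent.P022.H472.Lit2
import Vale.Agent.P022.H783.HK

/-!
# P022 [TW-MAT]: the translates `f(τ + v/m)` of a form of level `N` and the Hecke operators
-/

open scoped ModularForm MatrixGroups Manifold
open UpperHalfPlane Matrix CongruenceSubgroup
open Vale.Agent.P004H.H181 (isCusp_smul_rat)

noncomputable section

namespace Vale.Agent.P022.H567.Tw

open H783

/-- `[1, v / m; 0, 1]` over `ℚ` -/
def Uq (m : ℕ) (v : ℤ) : GL (Fin 2) ℚ := tri 1 ((v : ℚ) / m) 1 (by norm_num)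

/-- `[1, v / m; 0, 1]` over `ℝ` -/
def Ur (m : ℕ) (v : ℤ) : GL (Fin 2) ℝ := (Uq m v).map (algebraMap ℚ ℝ)

theorem Ur_coe (m : ℕ) (v : ℤ) :
    (Ur m v : Matrix (Fin 2) (Fin 2) ℝ) = !![1, (v : ℝ) / m; 0, 1] := by
  rw [Ur, Uq, tri_coe]
  simp

theorem Ur_det (m : ℕ) (v : ℤ) : 0 < (Ur m v).det.val := by
  rw [Ur, Uq, tri_det]
  norm_num

theorem mem_Gam {N : ℕ} {a b c d : ℤ} (h : a * d - b * c = 1) (hN : (N : ℤ) ∣ c)
    (hd : (N : ℤ) ∣ d - 1) (γ : GL (Fin 2) ℝ)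
    (hγ : (γ : Matrix (Fin 2) (Fin 2) ℝ) = !![(a : ℝ), b; c, d]) : γ ∈ Gam N := by
  obtain ⟨γ', h1, h2⟩ := mem_G1 N h hN hd
  have : γ = γ' := Units.ext (hγ.trans h2.symm)
  rw [this]
  exact h1

/-- `U γ = γ' U` for `γ ∈ Γ₁(N m²)` -/
theorem conj_Ur {N m : ℕ} (hm : m ≠ 0) (v : ℤ) {γ : GL (Fin 2) ℝ}
    (hγ : γ ∈ Gam (N * m ^ 2)) : ∃ γ' ∈ Gam N, Ur m v * γ = γ' * Ur m v := by
  obtain ⟨a, b, c, d, h1, ⟨c', h2⟩, ⟨a', h2a⟩, ⟨d', h2d⟩, h3⟩ := of_mem_G1 hγ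
  have hmR : (m : ℝ) ≠ 0 := by exact_mod_cast hm
  push_cast at h2 h2a h2d
  have ea : a = 1 + N * m ^ 2 * a' := by linear_combination h2a
  have ed : d = 1 + N * m ^ 2 * d' := by linear_combination h2d
  refine ⟨Ur m v * γ * (Ur m v)⁻¹, ?_, by group⟩
  refine mem_Gam (N := N) (a := a + v * N * m * c') (b := b + v * N * m * (d' - a') -
    v ^ 2 * N * c') (c := c) (d := d - v * N * m * c') ?_ ?_ ?_ _ ?_
  · rw [h2, ea, ed] at h1 ⊢
    linear_combination h1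
  · rw [h2]
    exact ⟨m ^ 2 * c', by ring⟩
  · rw [ed]
    exact ⟨m ^ 2 * d' - v * m * c', by ring⟩
  · have hinv : (((Ur m v)⁻¹ : GL (Fin 2) ℝ) : Matrix (Fin 2) (Fin 2) ℝ) =
        !![1, -((v : ℝ) / m); 0, 1] := by
      have e : (Ur m v)⁻¹ = Ur m (-v) := by
        rw [inv_eq_iff_mul_eq_one]
        apply Units.ext
        rw [Units.val_mul, Ur_coe, Ur_coe]
        ext i j
        fin_cases i <;> fin_cases j <;> simp [Matrix.mul_apply, Fin.sum_univ_two]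
        ring
      rw [e, Ur_coe]
      push_cast
      rw [neg_div]
    rw [Units.val_mul, Units.val_mul, hinv, Ur_coe, h3, h2, ea, ed]
    ext i j
    fin_cases i <;> fin_cases j <;> simp [Matrix.mul_apply, Fin.sum_univ_two] <;>
      field_simp <;> ring

/-- the translate `f(τ + v/m)` as a form of level `N m²` -/
def tv (N m : ℕ) [NeZero N] [NeZero m] (v : ℤ) (k : ℕ) : MF N k →ₗ[ℂ] MF (N * m ^ 2) k where
  toFun f :=
    { toFun := (f : ℍ → ℂ) ∣[(k : ℤ)] Ur m v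
      slash_action_eq' := fun γ hγ => by
        obtain ⟨γ', h1, h2⟩ := conj_Ur (NeZero.ne m) v hγ
        have h3 : (f : ℍ → ℂ) ∣[(k : ℤ)] γ' = f := f.slash_action_eq' γ' h1
        rw [← SlashAction.slash_mul, h2, SlashAction.slash_mul, h3]
      holo' := f.holo'.slash k _
      bdd_at_cusps' := fun {c} hc => by
        have hc' : IsCusp c (Gam N) := by
          rw [Subgroup.IsArithmetic.isCusp_iff_isCusp_SL2Z] at hc ⊢
          exact hc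
        have h1 := f.bdd_at_cusps' (isCusp_smul_rat hc' (Uq m v))
        exact OnePoint.IsBoundedAt.smul_iff.1 h1 }
  map_add' f g := by
    ext τ
    change (((f + g : MF N k) : ℍ → ℂ) ∣[(k : ℤ)] Ur m v) τ = _
    rw [FunLike.coe_add, SlashAction.add_slash]
    rfl
  map_smul' c f := by
    ext τ
    change (((c • f : MF N k) : ℍ → ℂ) ∣[(k : ℤ)] Ur m v) τ = _
    rw [FunLike.coe_smul, ModularForm.smul_slash, σ, if_pos (Ur_det m v)]
    rfl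

theorem tv_coe (N m : ℕ) [NeZero N] [NeZero m] (v : ℤ) (k : ℕ) (f : MF N k) :
    (tv N m v k f : ℍ → ℂ) = (f : ℍ → ℂ) ∣[(k : ℤ)] Ur m v := rfl

theorem tv_apply (N m : ℕ) [NeZero N] [NeZero m] (v : ℤ) (k : ℕ) (f : MF N k) (τ : ℍ) :
    tv N m v k f τ = f (((v : ℝ) / m) +ᵥ τ) := by
  rw [tv_coe, ModularForm.slash_def]
  have hd : (Ur m v).det.val = 1 := by
    rw [Ur, Uq, tri_det]
    norm_num
  have hs : Ur m v • τ = ((v : ℝ) / m) +ᵥ τ := by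
    ext1
    rw [UpperHalfPlane.coe_smul_of_det_pos (Ur_det m v), UpperHalfPlane.coe_vadd, num, denom]
    simp [Ur_coe]
    ring
  have hden : denom (Ur m v) τ = 1 := by
    simp [denom, Ur_coe]
  change (σ (Ur m v)) (f (Ur m v • τ)) * (|(Ur m v).det.val| : ℝ) ^ ((k : ℤ) - 1) *
    denom (Ur m v) τ ^ (-(k : ℤ)) = _
  rw [hs, hden, hd, σ, if_pos (Ur_det m v)]
  simp

/-- the prime `ℓ ∤ 2 N m²` as a prime `ℓ ∤ 2 N` -/
def dec {N m : ℕ} (ℓ : PA (N * m ^ 2)) : PA N :=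
  ⟨ℓ.1, ℓ.2.1, fun h => ℓ.2.2 (h.trans ⟨m ^ 2, by ring⟩)⟩

theorem slash_congr {k : ℤ} (F : ℍ → ℂ) {A B : GL (Fin 2) ℝ}
    (h : (A : Matrix (Fin 2) (Fin 2) ℝ) = B) : F ∣[k] A = F ∣[k] B := by
  rw [Units.ext h]

theorem Ur_up {m ℓ : ℕ} (hℓ : ℓ ≠ 0) (v : ℤ) (j : ℕ) :
    Ur m v * up ℓ hℓ j = up ℓ hℓ j * Ur m (ℓ * v) := by
  apply Units.ext
  rw [Units.val_mul, Units.val_mul, Ur_coe, Ur_coe, up, tri_coe]
  ext i j
  fin_cases i <;> fin_cases j <;> simp [Matrix.mul_apply, Fin.sum_univ_two]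
  ring

theorem Ur_dn {m ℓ : ℕ} (hℓ : ℓ ≠ 0) (v : ℤ) :
    Ur m (ℓ ^ 2 * v) * dn ℓ hℓ = dn ℓ hℓ * Ur m (ℓ * v) := by
  apply Units.ext
  rw [Units.val_mul, Units.val_mul, Ur_coe, Ur_coe, dn, tri_coe]
  ext i j
  fin_cases i <;> fin_cases j <;> simp [Matrix.mul_apply, Fin.sum_univ_two]
  ring

/-- the diamond operators and the translates -/
theorem dFun_tv {N m : ℕ} [NeZero N] [NeZero m] (v : ℤ) (k : ℕ) (ℓ : PA (N * m ^ 2))
    (f : MF N k) : dFun (N * m ^ 2) k ℓ ((f : ℍ → ℂ) ∣[(k : ℤ)] Ur m v) =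
      (dFun N k (dec ℓ) f) ∣[(k : ℤ)] Ur m ((ℓ.1 : ℤ) ^ 2 * v) := by
  obtain ⟨a, b, h1, e⟩ := gd_coe ℓ.coprime
  have hmR : (m : ℝ) ≠ 0 := by exact_mod_cast NeZero.ne m
  push_cast at h1
  -- the matrix `U s U⁻¹`
  have hdet : (a + v * N * m) * (ℓ.1 - N * m * (ℓ.1 ^ 2 * v)) -
      (b - v * ℓ.1 * b * N * m - v * (ℓ.1 ^ 2 * v) * N) * (N * m ^ 2 : ℤ) = 1 := by
    have ha : a * ℓ.1 = 1 + b * (N * m ^ 2) := by linear_combination h1
    linear_combination (1 - N * m * v * ℓ.1) * ha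
  let s : SL(2, ℤ) := ⟨!![a + v * N * m, b - v * ℓ.1 * b * N * m - v * (ℓ.1 ^ 2 * v) * N;
    (N * m ^ 2 : ℤ), ℓ.1 - N * m * (ℓ.1 ^ 2 * v)], by rw [Matrix.det_fin_two_of]; exact hdet⟩
  have hs : s ∈ Gamma0 N := by
    rw [Gamma0_mem]
    change (((N * m ^ 2 : ℤ) : ℤ) : ZMod N) = 0
    rw [ZMod.intCast_zmod_eq_zero_iff_dvd]
    exact ⟨m ^ 2, rfl⟩
  have hs1 : ((s 1 1 : ℤ) : ZMod N) = (dec ℓ).1 := by
    change (((ℓ.1 - N * m * (ℓ.1 ^ 2 * v) : ℤ)) : ZMod N) = (ℓ.1 : ZMod N)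
    push_cast
    rw [ZMod.natCast_self]
    ring
  rw [dFun_eq (dec ℓ) hs hs1 f, dFun]
  change ((f : ℍ → ℂ) ∣[(k : ℤ)] Ur m v) ∣[(k : ℤ)]
      (SpecialLinearGroup.mapGL ℝ (gd (N * m ^ 2) ℓ.1 ℓ.coprime)) =
    ((f : ℍ → ℂ) ∣[(k : ℤ)] (SpecialLinearGroup.mapGL ℝ s)) ∣[(k : ℤ)]
      Ur m ((ℓ.1 : ℤ) ^ 2 * v)
  rw [← SlashAction.slash_mul, ← SlashAction.slash_mul]
  apply slash_congr
  rw [Units.val_mul, Units.val_mul, Ur_coe, Ur_coe, SpecialLinearGroup.mapGL_coe_matrix,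
    SpecialLinearGroup.mapGL_coe_matrix, SpecialLinearGroup.map_apply_coe,
    SpecialLinearGroup.map_apply_coe, e]
  have ha : (a : ℝ) * ℓ.1 = 1 + b * (N * m ^ 2) := by
    have : a * ℓ.1 = 1 + b * (N * m ^ 2) := by linear_combination h1
    exact_mod_cast this
  ext i j
  fin_cases i <;> fin_cases j
  · simp [s, Matrix.mul_apply, Fin.sum_univ_two]
    field_simp
  · simp [s, Matrix.mul_apply, Fin.sum_univ_two]
    field_simp
    linear_combination (-(v : ℝ) * ℓ.1) * ha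
  · simp [s, Matrix.mul_apply, Fin.sum_univ_two]
  · simp [s, Matrix.mul_apply, Fin.sum_univ_two]
    field_simp
    ring

/-- **the diamond operators and the translates** -/
theorem gHk_inr_tv {N m : ℕ} [NeZero N] [NeZero m] (v : ℤ) (i : ℕ) (ℓ : PA (N * m ^ 2))
    (f : MF N (i + 1)) : gHk (N * m ^ 2) (Sum.inr ℓ) i (tv N m v (i + 1) f) =
      tv N m ((ℓ.1 : ℤ) ^ 2 * v) (i + 1) (gHk N (Sum.inr (dec ℓ)) i f) := by
  change ((ℓ.1 : ℂ) ^ i) • H783.dia (i + 1) ℓ (tv N m v (i + 1) f) =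
    tv N m ((ℓ.1 : ℤ) ^ 2 * v) (i + 1) (((ℓ.1 : ℂ) ^ i) • H783.dia (i + 1) (dec ℓ) f)
  rw [map_smul]
  congr 1
  apply DFunLike.coe_injective
  rw [dia_coe, tv_coe, tv_coe, dia_coe, dFun_tv]

/-- **the Hecke operators and the translates** -/
theorem gHk_inl_tv {N m : ℕ} [NeZero N] [NeZero m] (v : ℤ) (i : ℕ) (ℓ : PA (N * m ^ 2))
    (f : MF N (i + 1)) : gHk (N * m ^ 2) (Sum.inl ℓ) i (tv N m v (i + 1) f) =
      tv N m ((ℓ.1 : ℤ) * v) (i + 1) (gHk N (Sum.inl (dec ℓ)) i f) := by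
  change H783.Tl (i + 1) ℓ (tv N m v (i + 1) f) =
    tv N m ((ℓ.1 : ℤ) * v) (i + 1) (H783.Tl (i + 1) (dec ℓ) f)
  apply DFunLike.coe_injective
  rw [Tl_coe, tv_coe, tv_coe, Tl_coe, tFun, tFun, SlashAction.add_slash, SlashAction.sum_slash,
    dFun_tv]
  congr 1
  · refine Finset.sum_congr rfl fun j _ => ?_
    rw [← SlashAction.slash_mul, ← SlashAction.slash_mul, Ur_up]
    rfl
  · rw [← SlashAction.slash_mul, ← SlashAction.slash_mul, Ur_dn]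
    rfl

/-- the translate depends only on `v` modulo `m` -/
theorem tv_add (N m : ℕ) [NeZero N] [NeZero m] (v w : ℤ) (k : ℕ) (f : MF N k) :
    tv N m (v + m * w) k f = tv N m v k f := by
  have hmR : (m : ℝ) ≠ 0 := by exact_mod_cast NeZero.ne m
  apply DFunLike.coe_injective
  rw [tv_coe, tv_coe]
  obtain ⟨γ, h1, h2⟩ := mem_G1 N (a := 1) (b := w) (c := 0) (d := 1) (by ring)
    (dvd_zero _) (by simp)
  have h3 : (f : ℍ → ℂ) ∣[(k : ℤ)] γ = f := f.slash_action_eq' γ h1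
  have h4 : Ur m (v + m * w) = γ * Ur m v := by
    apply Units.ext
    rw [Units.val_mul, Ur_coe, Ur_coe, h2]
    ext i j
    fin_cases i <;> fin_cases j <;> simp [Matrix.mul_apply, Fin.sum_univ_two]
    field_simp
  rw [h4, SlashAction.slash_mul, h3]

theorem tv_congr (N m : ℕ) [NeZero N] [NeZero m] {v w : ℤ} (h : (v : ZMod m) = w) (k : ℕ)
    (f : MF N k) : tv N m v k f = tv N m w k f := by
  obtain ⟨c, hc⟩ := (ZMod.intCast_eq_intCast_iff_dvd_sub w v m).1 h.symm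
  have : v = w + m * c := by linear_combination hc
  rw [this, tv_add]

end Vale.Agent.P022.H567.Tw
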