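import Vale.Agent.P022.H567.Tw.Lim
import Vale.Agent.P022.H811.L3.Up
import Vale.Agent.P022.H20.Val
import Vale.Agent.P022.H587.Lim

/-!
# P022 [TWIST]: continuous homomorphisms and limits of systems of eigenvalues
-/

open scoped TensorProduct

noncomputable section

namespace Vale.Agent.P022.H567.Tw

/-- [KILL], from helper811's theorem -/
theorem kill {N m : ℕ} [NeZero N] (hm : ∀ p : ℕ, p.Prime → p ∣ m → p ∣ N) : Kill N m :=
  fun i x h => H811.L3.kill_of_coprime m i hm x h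

section

variable {S : Type} {V : ℕ → Type} [∀ i, Ring (V i)] (g : S → ∀ i, V i)

local instance iR (k : ℕ) : Ring (ℤ_[2] ⊗[ℤ] HA g k) := inferInstance
local instance iRp : Ring (∀ k, ℤ_[2] ⊗[ℤ] HA g k) := Pi.ring
local instance iT : Ring (T2 g) := (T2 g).toRing
local instance iTS : Semiring (T2 g) := (iT g).toSemiring
local instance iTN : NonAssocSemiring (T2 g) := (iTS g).toNonAssocSemiring

variable {E : Type} [NontriviallyNormedField E] [NormedAlgebra ℚ_[2] E]

theorem lam_jj (c : ContHom g E) (x : FreeAlgebra ℤ S) :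
    c.lam (H587.jj g x) = FreeAlgebra.lift ℤ c.val x := by
  have hι : ∀ s, H587.jj g (FreeAlgebra.ι ℤ s) = gT2 g s := fun s =>
    FreeAlgebra.lift_ι_apply _ _
  induction x using FreeAlgebra.induction with
  | grade0 n =>
    rw [AlgHom.commutes, AlgHom.commutes, eq_intCast, eq_intCast]
    exact map_intCast c.lam n
  | grade1 s =>
    rw [hι, FreeAlgebra.lift_ι_apply]
    rfl
  | mul p q hp hq =>
    rw [map_mul (H587.jj g), map_mul (FreeAlgebra.lift ℤ c.val), ← hp, ← hq]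
    exact c.lam.map_mul' _ _
  | add p q hp hq =>
    rw [map_add (H587.jj g), map_add (FreeAlgebra.lift ℤ c.val), ← hp, ← hq]
    exact c.lam.map_add' _ _

theorem small_jj (x : FreeAlgebra ℤ S) (k M : ℕ)
    (hx : ∀ i < k, FreeAlgebra.lift ℤ (fun s => g s i) x = 0) : Small g k M (H587.jj g x) := by
  refine ⟨0, ?_⟩
  have h1 : H587.pi g k x = 0 := by
    apply Subtype.ext
    funext i
    rw [H587.pi_apply]
    exact hx i i.2
  rw [H587.jj_apply, h1, TensorProduct.tmul_zero, smul_zero]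

/-- continuity in terms of polynomials in the generators -/
theorem lam_small (c : ContHom g E) (ε : ℝ) (hε : 0 < ε) : ∃ k : ℕ, ∀ x : FreeAlgebra ℤ S,
    (∀ i < k, FreeAlgebra.lift ℤ (fun s => g s i) x = 0) → ‖FreeAlgebra.lift ℤ c.val x‖ < ε := by
  obtain ⟨k, M, h⟩ := c.lam_cont ε hε
  refine ⟨k, fun x hx => ?_⟩
  rw [← lam_jj g c x]
  exact h _ (small_jj g x k M hx)

theorem norm_lift_le [IsUltrametricDist E] (a : S → E) (ha : ∀ s, ‖a s‖ ≤ 1)
    (x : FreeAlgebra ℤ S) : ‖FreeAlgebra.lift ℤ a x‖ ≤ 1 := by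
  induction x using FreeAlgebra.induction with
  | grade0 n =>
    rw [AlgHom.commutes, eq_intCast]
    have h1 : ((n : ℤ) : E) = algebraMap ℚ_[2] E (n : ℚ_[2]) := by simp
    rw [h1, norm_algebraMap']
    exact Padic.norm_int_le_one n
  | grade1 s =>
    rw [FreeAlgebra.lift_ι_apply]
    exact ha s
  | mul p q hp hq =>
    rw [map_mul, norm_mul]
    exact mul_le_one₀ hp (norm_nonneg _) hq
  | add p q hp hq =>
    rw [map_add]
    exact (IsUltrametricDist.norm_add_le_max _ _).trans (max_le hp hq)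

theorem exists_contHom [IsUltrametricDist E] [CompleteSpace E] (a : S → E)
    (ha : ∀ s, ‖a s‖ ≤ 1) (h : ∀ ε : ℝ, 0 < ε → ∃ k : ℕ, ∀ x : FreeAlgebra ℤ S,
      (∀ i < k, FreeAlgebra.lift ℤ (fun s => g s i) x = 0) → ‖FreeAlgebra.lift ℤ a x‖ < ε) :
    ∃ c : ContHom g E, ∀ s, c.val s = a s := by
  obtain ⟨c, hc⟩ := H587.LIM S V g E (FreeAlgebra.lift ℤ a) (norm_lift_le a ha) h
  exact ⟨c, fun s => (hc s).trans (FreeAlgebra.lift_ι_apply _ _)⟩

theorem norm_val_le (c : ContHom g E) (s : S) : ‖c.val s‖ ≤ 1 := c.lam_le _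

end

end Vale.Agent.P022.H567.Tw
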