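import Vale.Agent.P022.H567.Tw.Sh

/-!
# P022 [TW-TH]: polynomials in the Hecke operators of level `N m²` on the translates
-/

open scoped ModularForm MatrixGroups Manifold
open UpperHalfPlane Matrix CongruenceSubgroup Finset

noncomputable section

namespace Vale.Agent.P022.H567.Tw

variable {N m : ℕ} [NeZero N] [NeZero m]

omit [NeZero N] [NeZero m] in
theorem cop (ℓ : PA (N * m ^ 2)) : Nat.Coprime ℓ.1 m :=
  (Nat.Prime.coprime_iff_not_dvd ℓ.2.1).2 fun h => ℓ.2.2 (h.trans ⟨2 * N * m, by ring⟩)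

/-- the class of `ℓ` modulo `m` -/
def uℓ (ℓ : PA (N * m ^ 2)) : (ZMod m)ˣ := ZMod.unitOfCoprime ℓ.1 (cop ℓ)

omit [NeZero N] [NeZero m] in
theorem uℓ_coe (ℓ : PA (N * m ^ 2)) : ((uℓ ℓ : (ZMod m)ˣ) : ZMod m) = ℓ.1 := rfl

/-- the translate by a class modulo `m` -/
def tz (N m : ℕ) [NeZero N] [NeZero m] (v : ZMod m) (k : ℕ) : MF N k →ₗ[ℂ] MF (N * m ^ 2) k :=
  tv N m (v.val : ℤ) k

theorem tz_eq (v : ℤ) (k : ℕ) (f : MF N k) : tz N m (v : ZMod m) k f = tv N m v k f := by
  apply tv_congr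
  rw [Int.cast_natCast, ZMod.natCast_zmod_val]

/-- the operator attached to a polynomial in the generators -/
abbrev opx (N : ℕ) [NeZero N] (i : ℕ) (x : FreeAlgebra ℤ (Gen N)) : Module.End ℂ (MF N (i + 1)) :=
  FreeAlgebra.lift ℤ (fun s => gHk N s i) x

theorem gen_inl (v : ZMod m) (i : ℕ) (ℓ : PA (N * m ^ 2)) (f : MF N (i + 1)) :
    gHk (N * m ^ 2) (Sum.inl ℓ) i (tz N m v (i + 1) f) =
      tz N m ((uℓ ℓ : (ZMod m)ˣ) * v) (i + 1) (gHk N (Sum.inl (dec ℓ)) i f) := by
  rw [tz, gHk_inl_tv, ← tz_eq]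
  congr 1
  rw [uℓ_coe]
  push_cast
  rw [ZMod.natCast_zmod_val]

theorem gen_inr (v : ZMod m) (i : ℕ) (ℓ : PA (N * m ^ 2)) (f : MF N (i + 1)) :
    gHk (N * m ^ 2) (Sum.inr ℓ) i (tz N m v (i + 1) f) =
      tz N m (((uℓ ℓ) ^ 2 : (ZMod m)ˣ) * v) (i + 1) (gHk N (Sum.inr (dec ℓ)) i f) := by
  rw [tz, gHk_inr_tv, ← tz_eq]
  congr 1
  rw [Units.val_pow_eq_pow_val, uℓ_coe]
  push_cast
  rw [ZMod.natCast_zmod_val]

/-- the twisted system of eigenvalues -/
def twa {E : Type} [CommRing E] (ψ : (ZMod m)ˣ →* E) (a : Gen N → E) : Gen (N * m ^ 2) → E :=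
  Sum.elim (fun ℓ => ψ (uℓ ℓ) * a (Sum.inl (dec ℓ))) (fun ℓ => ψ (uℓ ℓ) ^ 2 * a (Sum.inr (dec ℓ)))

/-- **the components of a polynomial in the Hecke operators of level `N m²`** -/
theorem exists_comp {E : Type} [CommRing E] (ψ : (ZMod m)ˣ →* E) (a : Gen N → E)
    (x : FreeAlgebra ℤ (Gen (N * m ^ 2))) :
    ∃ X : (ZMod m)ˣ → FreeAlgebra ℤ (Gen N),
      (∀ (i : ℕ) (v : ZMod m) (f : MF N (i + 1)),
        opx (N * m ^ 2) i x (tz N m v (i + 1) f) =
          ∑ g : (ZMod m)ˣ, tz N m (g * v) (i + 1) (opx N i (X g) f)) ∧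
      FreeAlgebra.lift ℤ (twa ψ a) x = ∑ g : (ZMod m)ˣ, ψ g * FreeAlgebra.lift ℤ a (X g) := by
  classical
  induction x using FreeAlgebra.induction with
  | grade0 n =>
    refine ⟨fun g => if g = 1 then algebraMap ℤ _ n else 0, fun i v f => ?_, ?_⟩
    · rw [Finset.sum_eq_single 1]
      · simp only [opx, if_true, AlgHom.commutes, Units.val_one, one_mul]
        change (algebraMap ℤ (Module.End ℂ (MF (N * m ^ 2) (i + 1))) n) (tz N m v (i + 1) f) =
          tz N m v (i + 1) ((algebraMap ℤ (Module.End ℂ (MF N (i + 1))) n) f)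
        rw [eq_intCast, eq_intCast, Module.End.intCast_apply, Module.End.intCast_apply, map_zsmul]
      · intro g _ hg
        simp [hg, opx]
      · simp
    · rw [Finset.sum_eq_single 1]
      · simp
      · intro g _ hg
        simp [hg]
      · simp
  | grade1 s =>
    rcases s with ℓ | ℓ
    · refine ⟨fun g => if g = uℓ ℓ then FreeAlgebra.ι ℤ (Sum.inl (dec ℓ)) else 0,
        fun i v f => ?_, ?_⟩
      · rw [Finset.sum_eq_single (uℓ ℓ)]
        · simp only [opx, if_true, FreeAlgebra.lift_ι_apply]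
          exact gen_inl v i ℓ f
        · intro g _ hg
          simp [hg, opx]
        · simp
      · rw [Finset.sum_eq_single (uℓ ℓ)]
        · simp [twa]
        · intro g _ hg
          simp [hg]
        · simp
    · refine ⟨fun g => if g = (uℓ ℓ) ^ 2 then FreeAlgebra.ι ℤ (Sum.inr (dec ℓ)) else 0,
        fun i v f => ?_, ?_⟩
      · rw [Finset.sum_eq_single ((uℓ ℓ) ^ 2)]
        · simp only [opx, if_true, FreeAlgebra.lift_ι_apply]
          exact gen_inr v i ℓ f
        · intro g _ hg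
          simp [hg, opx]
        · simp
      · rw [Finset.sum_eq_single ((uℓ ℓ) ^ 2)]
        · simp [twa]
        · intro g _ hg
          simp [hg]
        · simp
  | mul p q hp hq =>
    obtain ⟨P, hP1, hP2⟩ := hp
    obtain ⟨Q, hQ1, hQ2⟩ := hq
    refine ⟨fun g => ∑ h : (ZMod m)ˣ, P h * Q (h⁻¹ * g), fun i v f => ?_, ?_⟩
    · have e1 : opx (N * m ^ 2) i (p * q) (tz N m v (i + 1) f) =
          opx (N * m ^ 2) i p (opx (N * m ^ 2) i q (tz N m v (i + 1) f)) := by
        simp only [opx, map_mul]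
        rfl
      rw [e1, hQ1, map_sum]
      simp only [hP1]
      rw [Finset.sum_comm]
      have e2 : ∀ g : (ZMod m)ˣ, tz N m (g * v) (i + 1)
          (opx N i (∑ h : (ZMod m)ˣ, P h * Q (h⁻¹ * g)) f) =
          ∑ h : (ZMod m)ˣ, tz N m (g * v) (i + 1) (opx N i (P h) (opx N i (Q (h⁻¹ * g)) f)) := by
        intro g
        simp only [opx, map_sum, map_mul]
        rw [LinearMap.sum_apply, map_sum]
        rfl
      simp only [e2]
      rw [Finset.sum_comm (s := (univ : Finset (ZMod m)ˣ))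
        (f := fun g h => tz N m (g * v) (i + 1) (opx N i (P h) (opx N i (Q (h⁻¹ * g)) f)))]
      refine Finset.sum_congr rfl fun h _ => ?_
      refine Fintype.sum_equiv (Equiv.mulLeft h) _ _ fun g => ?_
      simp only [Equiv.coe_mulLeft, inv_mul_cancel_left, Units.val_mul, mul_assoc]
    · rw [map_mul, hP2, hQ2, Finset.sum_mul_sum]
      simp only [map_sum, map_mul, Finset.mul_sum]
      rw [Finset.sum_comm (s := (univ : Finset (ZMod m)ˣ))
        (f := fun g h => ψ g * (FreeAlgebra.lift ℤ a (P h) *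
          FreeAlgebra.lift ℤ a (Q (h⁻¹ * g))))]
      refine Finset.sum_congr rfl fun h _ => ?_
      refine Fintype.sum_equiv (Equiv.mulLeft h) _ _ fun g => ?_
      simp only [Equiv.coe_mulLeft, inv_mul_cancel_left, map_mul]
      ring
  | add p q hp hq =>
    obtain ⟨P, hP1, hP2⟩ := hp
    obtain ⟨Q, hQ1, hQ2⟩ := hq
    refine ⟨fun g => P g + Q g, fun i v f => ?_, ?_⟩
    · have e1 : opx (N * m ^ 2) i (p + q) (tz N m v (i + 1) f) =
          opx (N * m ^ 2) i p (tz N m v (i + 1) f) + opx (N * m ^ 2) i q (tz N m v (i + 1) f) := by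
        simp only [opx, map_add]
        rfl
      rw [e1, hP1, hQ1, ← Finset.sum_add_distrib]
      refine Finset.sum_congr rfl fun g _ => ?_
      rw [← map_add]
      congr 1
      simp only [opx, map_add]
      rfl
    · rw [map_add, hP2, hQ2, ← Finset.sum_add_distrib]
      refine Finset.sum_congr rfl fun g _ => ?_
      rw [map_add, mul_add]

end Vale.Agent.P022.H567.Tw
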